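import Vale.Agent.N140.Main

open MeasureTheory Set Vale.Agent.N140.D

/-- **Renormalized entropy solutions of the periodic hard-sphere Boltzmann equation under a critical
bound: they solve the equation without renormalization, and they are unique if the constant is
small.** -/
theorem Vale.Agent.Results.P140.A0Threshold.result :
    (∀ F0 F c t, 0 < t → IsDatum F0 → IsSol F0 F → Crit c t F → Plain t F0 F) ∧
    (∀ F0 F G t, 0 < t → IsDatum F0 → IsSol F0 F → IsSol F0 G → Crit (1 / 120) t F →
      Crit (1 / 120) t G → ∀ s ∈ Icc 0 t, F s =ᵐ[volume] G s) :=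
  ⟨Vale.Agent.N140.threshold.2.1, Vale.Agent.N140.threshold.2.2.1⟩
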